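import Vale.Agent.P087.Assembly
import Vale.Agent.P087.Bridge
import Vale.Agent.P087.Conjugate
import Vale.Agent.P087.GUE
import Vale.Agent.P087.Lower
import Vale.Agent.P087.OpNorm
import Vale.Agent.P087.Realisation
import Vale.Agent.P087.Sanity
import Vale.Agent.P087.Upper

/-!
# P087: microstates and nonmicrostates free entropy differ, also at finite microstates entropy
-/

open Vale.Agent.P087

namespace Vale.Agent.Results.P087.Disproof

/-- There is a bounded self-adjoint tuple `X` in a tracial von Neumann algebra, with a free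
semicircular family `S` free from it, such that `-∞ < χ(X) < χ*(X) < ∞`. -/
theorem result :
    ∃ (H : Type) (_ : NormedAddCommGroup H) (_ : InnerProductSpace ℂ H) (_ : CompleteSpace H)
      (M : VonNeumannAlgebra H) (Ω : H) (n : ℕ) (X S : Fin n → H →L[ℂ] H),
      1 ≤ n ∧ IsFaithfulTracialState M Ω ∧ (∀ j, X j ∈ M ∧ IsSelfAdjoint (X j)) ∧
        (∀ j, S j ∈ M ∧ IsSelfAdjoint (S j)) ∧ IsFreeSemicircular Ω S ∧ IsFreeFrom Ω X S ∧
        (Measurable fun t : ℝ => fisher Ω (perturbed X S t)) ∧
        ⊥ < chi Ω X ∧ chi Ω X < chiStar Ω X S ∧ chiStar Ω X S < ⊤ := by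
  obtain ⟨H, i1, i2, i3, M, Ω, n, X, S, hn, hM, hX, hS, hSC, hXS, hlow, hlt⟩ :=
    counterexample_of realisation bridge conjugateStatement momentStatement (Lower.lower gue)
      Upper.upper
  exact ⟨H, i1, i2, i3, M, Ω, n, X, S, hn, hM, hX, hS, hSC, hXS, measurable_fisher_perturbed,
    hlow, hlt, chiStar_lt_top hM hX hS hSC hXS⟩

end Vale.Agent.Results.P087.Disproof
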